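import Vale.Agent.P281.H713.KD.Iface
import Vale.Agent.P281.H76.SncInt

/-! P281, theorem KD, block INT: integrability of `∏ (r i + ε) ^ (-a)`, `a < 1`, uniformly in `ε`. -/

open scoped Manifold ContDiff Topology ComplexOrder ENNReal
open Set Filter MeasureTheory Vale.Agent.P281.J Vale.Agent.P272.K Vale.Agent.P272.K.AMP
  Vale.Agent.P299
open Vale.Agent.P299.H882 (J)
open Vale.Agent.P272.K.INT (intX IsDensity)

noncomputable section

namespace Vale.Agent.P281.H970.KD

open Vale.Agent.P281.H713.KD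

variable {n : ℕ} {X : Type} [TopologicalSpace X] [ChartedSpace (Cm n) X]

/-- a real integral is at most the lower integral of the positive part -/
lemma integral_le_lint {α : Type*} [MeasurableSpace α] {μ : Measure α} (g : α → ℝ) :
    ∫ x, g x ∂μ ≤ (∫⁻ x, ENNReal.ofReal (g x) ∂μ).toReal := by
  by_cases hg : Integrable g μ
  · rw [integral_eq_lintegral_pos_part_sub_lintegral_neg_part hg]
    have : 0 ≤ (∫⁻ x, ENNReal.ofReal (-g x) ∂μ).toReal := ENNReal.toReal_nonneg
    linarith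
  · rw [integral_undef hg]
    exact ENNReal.toReal_nonneg

/-- From local bounds (in all charts) of the lower integrals of the functions `f s`, to a bound of
the integrals `∫_X f s dv_χ`. -/
theorem J_le_of_local [T2Space X] [CompactSpace X] [IsManifold 𝓘(ℂ, Cm n) ω X]
    {χ : Chart n X → Cm n → Matrix (Fin n) (Fin n) ℂ} (hχ : IsHermitian χ) {S : Type*}
    (f : S → X → ℝ)
    (h : ∀ (e : Chart n X) x, At e x → ∃ N ∈ 𝓝 (e x), ∃ C : ℝ≥0∞, C ≠ ⊤ ∧
      ∀ s, ∫⁻ z in N, ENNReal.ofReal (f s (e.symm z)) ≤ C) :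
    ∃ K : ℝ, ∀ s, J χ (f s) ≤ K := by
  set P := INT.part n X with hP
  have key : ∀ i, ∃ K : ℝ, ∀ s, ∫ z in (P.e i).target, P.ρ i ((P.e i).symm z) *
      (f s ((P.e i).symm z) * (χ (P.e i) z).det.re) ≤ K := by
    intro i
    set e := P.e i with he
    have hea : e ∈ atlas (Cm n) X := P.mem i
    set Q : Set (Cm n) := e '' tsupport (P.ρ i) with hQ
    have hQc : IsCompact Q := (isClosed_tsupport _).isCompact.image_of_continuousOn
      (e.continuousOn.mono (P.supp i))
    have hQt : Q ⊆ e.target := by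
      rintro _ ⟨x, hx, rfl⟩
      exact e.map_source (P.supp i hx)
    -- the local bound on the compact set
    have h1 : ∃ C : ℝ≥0∞, C ≠ ⊤ ∧ ∀ s, ∫⁻ z in Q, ENNReal.ofReal (f s (e.symm z)) ≤ C := by
      refine hQc.induction_on (p := fun A => ∃ C : ℝ≥0∞, C ≠ ⊤ ∧
        ∀ s, ∫⁻ z in A, ENNReal.ofReal (f s (e.symm z)) ≤ C) ?_ ?_ ?_ ?_
      · exact ⟨0, ENNReal.zero_ne_top, fun s => by simp⟩
      · rintro A B hAB ⟨C, hC, hB⟩
        exact ⟨C, hC, fun s => (lintegral_mono_set hAB).trans (hB s)⟩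
      · rintro A B ⟨C, hC, hA⟩ ⟨C', hC', hB⟩
        exact ⟨C + C', ENNReal.add_ne_top.2 ⟨hC, hC'⟩, fun s =>
          (lintegral_union_le _ _ _).trans (add_le_add (hA s) (hB s))⟩
      · intro z hz
        have hx : At e (e.symm z) := ⟨hea, e.map_target (hQt hz)⟩
        obtain ⟨N, hN, C, hC, hb⟩ := h e _ hx
        rw [e.right_inv (hQt hz)] at hN
        exact ⟨N, mem_nhdsWithin_of_mem_nhds hN, C, hC, hb⟩
    obtain ⟨C, hC, hCb⟩ := h1
    -- the bound of the determinant
    obtain ⟨T, hT⟩ : ∃ T : ℝ, ∀ z ∈ Q, (χ e z).det.re ≤ T := by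
      have hc : ContinuousOn (fun z => (χ e z).det.re) Q :=
        ((H882.dens_metric hχ).continuousOn hea).mono hQt
      obtain ⟨T, hT⟩ := (hQc.image_of_continuousOn hc).bddAbove
      exact ⟨T, fun z hz => hT ⟨z, hz, rfl⟩⟩
    have hT0 : ∀ z ∈ Q, (χ e z).det.re ≤ max T 0 := fun z hz => (hT z hz).trans (le_max_left _ _)
    refine ⟨(ENNReal.ofReal (max T 0) * C).toReal, fun s => ?_⟩
    refine (integral_le_lint _).trans (ENNReal.toReal_mono
      (ENNReal.mul_ne_top ENNReal.ofReal_ne_top hC) ?_)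
    have h2 : ∀ z ∈ e.target, ENNReal.ofReal (P.ρ i (e.symm z) *
        (f s (e.symm z) * (χ e z).det.re)) ≤
        Q.indicator (fun z => ENNReal.ofReal (max T 0) * ENNReal.ofReal (f s (e.symm z))) z := by
      intro z hz
      by_cases hzQ : z ∈ Q
      · rw [indicator_of_mem hzQ]
        have hx : At e (e.symm z) := ⟨hea, e.map_target hz⟩
        have hd : 0 < (χ e z).det.re := by
          have := H882.det_pos_re hχ hx
          rwa [e.right_inv hz] at this
        have hρ0 : 0 ≤ P.ρ i (e.symm z) := P.nonneg i _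
        have hρ1 : P.ρ i (e.symm z) ≤ 1 := by
          rw [← P.sum (e.symm z)]
          exact Finset.single_le_sum (f := fun j => P.ρ j (e.symm z))
            (fun j _ => P.nonneg j _) (Finset.mem_univ i)
        rw [← ENNReal.ofReal_mul (le_max_right _ _)]
        by_cases hf0 : 0 ≤ f s (e.symm z)
        · refine ENNReal.ofReal_le_ofReal ?_
          calc P.ρ i (e.symm z) * (f s (e.symm z) * (χ e z).det.re)
              ≤ 1 * (f s (e.symm z) * (χ e z).det.re) :=
                mul_le_mul_of_nonneg_right hρ1 (mul_nonneg hf0 hd.le)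
            _ = (χ e z).det.re * f s (e.symm z) := by ring
            _ ≤ max T 0 * f s (e.symm z) := mul_le_mul_of_nonneg_right (hT0 z hzQ) hf0
        · push Not at hf0
          rw [ENNReal.ofReal_of_nonpos]
          · exact zero_le
          · exact mul_nonpos_of_nonneg_of_nonpos hρ0
              (mul_nonpos_of_nonpos_of_nonneg hf0.le hd.le)
      · rw [indicator_of_notMem hzQ]
        have : e.symm z ∉ tsupport (P.ρ i) := by
          intro h'
          exact hzQ ⟨_, h', e.right_inv hz⟩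
        rw [image_eq_zero_of_notMem_tsupport this, zero_mul, ENNReal.ofReal_zero]
    calc ∫⁻ z in e.target, ENNReal.ofReal (P.ρ i (e.symm z) *
          (f s (e.symm z) * (χ e z).det.re))
        ≤ ∫⁻ z in e.target, Q.indicator (fun z => ENNReal.ofReal (max T 0) *
          ENNReal.ofReal (f s (e.symm z))) z :=
          setLIntegral_mono' e.open_target.measurableSet h2
      _ ≤ ∫⁻ z, Q.indicator (fun z => ENNReal.ofReal (max T 0) *
          ENNReal.ofReal (f s (e.symm z))) z := setLIntegral_le_lintegral _ _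
      _ = ∫⁻ z in Q, ENNReal.ofReal (max T 0) * ENNReal.ofReal (f s (e.symm z)) :=
          lintegral_indicator hQc.isClosed.measurableSet _
      _ = ENNReal.ofReal (max T 0) * ∫⁻ z in Q, ENNReal.ofReal (f s (e.symm z)) :=
          lintegral_const_mul' _ _ ENNReal.ofReal_ne_top
      _ ≤ ENNReal.ofReal (max T 0) * C := mul_le_mul_right (hCb s) _
  choose K hK using key
  refine ⟨∑ i, K i, fun s => ?_⟩
  unfold J intX
  rw [← hP]
  exact Finset.sum_le_sum fun i _ => hK i s

section bd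

variable {M : ℕ} {Dv : Fin M → Set X} {r : Fin M → X → ℝ} {R : Fin M → D.FormM n X}

lemma IsBd.nonneg (hB : IsBd Dv r R) (i : Fin M) (x : X) : 0 ≤ r i x := by
  have hx : At (chartAt (Cm n) x) x := ⟨chart_mem_atlas (Cm n) x, mem_chart_source (Cm n) x⟩
  obtain ⟨g, ψ, -, -, -, -, hev⟩ := hB.loc _ x hx
  have h1 := (hev.self_of_nhds i).1
  rw [(chartAt (Cm n) x).left_inv hx.2] at h1
  rw [h1]
  positivity

/-- the pointwise comparison with the local equations -/
lemma pt_bound {a c t ε : ℝ} (ha : 0 < a) (hc : 0 < c) (hε : 0 < ε) {w : ℂ}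
    (h : c * ‖w‖ ^ 2 ≤ t) :
    ENNReal.ofReal ((t + ε) ^ (-a)) ≤ ENNReal.ofReal c ^ (-a) * ‖w‖ₑ ^ (-(2 * a)) := by
  have h0 : 0 ≤ c * ‖w‖ ^ 2 := by positivity
  have ht : 0 < t + ε := by linarith
  have h1 : ENNReal.ofReal c ^ (-a) * ‖w‖ₑ ^ (-(2 * a)) =
      (ENNReal.ofReal (c * ‖w‖ ^ 2)) ^ (-a) := by
    rw [ENNReal.ofReal_mul hc.le, ENNReal.ofReal_pow (norm_nonneg _), ofReal_norm,
      ENNReal.mul_rpow_of_ne_top ENNReal.ofReal_ne_top (by
        exact ENNReal.pow_ne_top enorm_ne_top), ← ENNReal.rpow_natCast, ← ENNReal.rpow_mul]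
    congr 2
    push_cast
    ring
  rw [h1, ← ENNReal.ofReal_rpow_of_pos ht, ENNReal.rpow_neg, ENNReal.rpow_neg,
    ENNReal.inv_le_inv]
  exact ENNReal.rpow_le_rpow (ENNReal.ofReal_le_ofReal (by linarith)) ha.le

/-- local form of the integrability -/
theorem local_bound (hB : IsBd Dv r R) {a : ℝ} (ha : a < 1) (e : Chart n X) (x : X)
    (hx : At e x) : ∃ N ∈ 𝓝 (e x), ∃ C : ℝ≥0∞, C ≠ ⊤ ∧ ∀ s : {ε : ℝ // 0 < ε ∧ ε ≤ 1},
      ∫⁻ z in N, ENNReal.ofReal (∏ i, (r i (e.symm z) + s.1) ^ (-a)) ≤ C := by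
  rcases le_or_gt a 0 with ha0 | ha0
  · refine ⟨Metric.ball (e x) 1, Metric.ball_mem_nhds _ one_pos,
      ENNReal.ofReal (∏ i : Fin M, (2 : ℝ) ^ (-a)) * volume (Metric.ball (e x) 1),
      ENNReal.mul_ne_top ENNReal.ofReal_ne_top measure_ball_lt_top.ne, fun s => ?_⟩
    rw [← setLIntegral_const]
    refine lintegral_mono fun z => ENNReal.ofReal_le_ofReal ?_
    refine Finset.prod_le_prod (fun i _ => Real.rpow_nonneg ?_ _) fun i _ => ?_
    · have := IsBd.nonneg hB i (e.symm z)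
      have := s.2.1
      linarith
    · refine Real.rpow_le_rpow ?_ ?_ (by linarith)
      · have := IsBd.nonneg hB i (e.symm z)
        have := s.2.1
        linarith
      · have := hB.le_one i (e.symm z)
        have := s.2.2
        linarith
  · obtain ⟨g, ψ, hg, hψ, -, hli, hev⟩ := hB.loc e x hx
    obtain ⟨N, hN, hint⟩ := H76.local_int (Finset.univ : Finset (Fin M)) g (e x)
      (fun j _ => (hg j).contDiffAt)
      (hli.comp (fun j : {j // j ∈ (Finset.univ : Finset (Fin M)) ∧ g j (e x) = 0} =>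
        (⟨j.1, j.2.2⟩ : {i // g i (e x) = 0}))
        fun j j' h => Subtype.ext (congrArg (fun q : {i // g i (e x) = 0} => q.1) h))
      (fun _ => a) (fun _ => ha0.le) (fun _ => ha)
    have hψ1 : ∀ᶠ z in 𝓝 (e x), ∀ i, ψ i z < ψ i (e x) + 1 := by
      rw [Filter.eventually_all]
      intro i
      exact (hψ i).continuousAt.eventually_lt continuousAt_const (by simp)
    obtain ⟨ρ, hρ, hball⟩ := Metric.eventually_nhds_iff_ball.1 ((hev.and hψ1).and hN)
    set c : Fin M → ℝ := fun i => Real.exp (-(ψ i (e x) + 1)) with hc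
    have hc0 : ∀ i, 0 < c i := fun i => Real.exp_pos _
    set Cst : ℝ≥0∞ := ∏ i, ENNReal.ofReal (c i) ^ (-a) with hCst
    have hCst' : Cst ≠ ⊤ := by
      refine ENNReal.prod_ne_top fun i _ => ?_
      rw [ENNReal.ofReal_rpow_of_pos (hc0 i)]
      exact ENNReal.ofReal_ne_top
    refine ⟨Metric.ball (e x) ρ, Metric.ball_mem_nhds _ hρ,
      Cst * ∫⁻ z in N, ∏ j, ‖g j z‖ₑ ^ (-(2 * a)), ENNReal.mul_ne_top hCst' hint,
      fun s => ?_⟩
    have hpt : ∀ z ∈ Metric.ball (e x) ρ,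
        ENNReal.ofReal (∏ i, (r i (e.symm z) + s.1) ^ (-a)) ≤
          Cst * ∏ j, ‖g j z‖ₑ ^ (-(2 * a)) := by
      intro z hz
      obtain ⟨⟨h1, h2⟩, -⟩ := hball z hz
      rw [ENNReal.ofReal_prod_of_nonneg fun i _ => Real.rpow_nonneg (by
        have := IsBd.nonneg hB i (e.symm z)
        have := s.2.1
        linarith) _, hCst, ← Finset.prod_mul_distrib]
      refine Finset.prod_le_prod' fun i _ => pt_bound ha0 (hc0 i) s.2.1 ?_
      rw [(h1 i).1, mul_comm]
      refine mul_le_mul_of_nonneg_left ?_ (by positivity)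
      rw [hc]
      exact Real.exp_le_exp.2 (by linarith [h2 i])
    calc ∫⁻ z in Metric.ball (e x) ρ, ENNReal.ofReal (∏ i, (r i (e.symm z) + s.1) ^ (-a))
        ≤ ∫⁻ z in Metric.ball (e x) ρ, Cst * ∏ j, ‖g j z‖ₑ ^ (-(2 * a)) :=
          setLIntegral_mono' measurableSet_ball hpt
      _ = Cst * ∫⁻ z in Metric.ball (e x) ρ, ∏ j, ‖g j z‖ₑ ^ (-(2 * a)) :=
          lintegral_const_mul' _ _ hCst'
      _ ≤ Cst * ∫⁻ z in N, ∏ j, ‖g j z‖ₑ ^ (-(2 * a)) :=
          mul_le_mul_right (lintegral_mono_set fun z hz => (hball z hz).2) _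

end bd

/-- **Block INT**. -/
theorem intPart : IntPart := by
  intro n M X _ _ _ _ _ _ χ hχ Dv r R hB a ha
  obtain ⟨K, hK⟩ := J_le_of_local hχ.toIsHermitian (S := {ε : ℝ // 0 < ε ∧ ε ≤ 1})
    (fun s x => ∏ i, (r i x + s.1) ^ (-a)) (local_bound hB ha)
  exact ⟨K, fun ε h0 h1 => hK ⟨ε, h0, h1⟩⟩

end Vale.Agent.P281.H970.KD
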